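import Vale.Agent.P297.H600.Triv
import Vale.Agent.P297.H160.FourAllOne
import Vale.Agent.P297.H55.All

/-!
The general numerical Godeaux surface with torsion `ℤ/4`, with the weakest conditions on
the invariants: the discriminant of the quartic is not identically zero.
-/

set_option linter.unusedSectionVars false
set_option linter.style.haveILetI false

open CategoryTheory AlgebraicGeometry IntermediateField Polynomial WeierstrassCurve
open WeierstrassCurve.Affine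

namespace Vale.Agent.P297.H212.Four

open Vale.Agent.P297 Vale.Agent.P297.Gen Vale.Agent.P297.Z3 Vale.Agent.P297.H839
open Vale.Agent.P297.H600 Vale.Agent.P297.H160 Vale.Agent.P297.H729 Vale.Agent.P297.G4
open Vale.Agent.P297.G4.J

/-- The discriminant in `l` does not vanish. -/
theorem dx_disc_ne (D : Fin 5 → Fin 3 → ℂ)
    (h4 : ∃ l : ℂ, 4 * G4.qI (dq D l) ^ 3 ≠ G4.qJ (dq D l) ^ 2)
    (hnt : ∀ α β s t : ℂ, ¬ ∀ l : ℂ, G4.qI (dq D l) = α * (s * l + t) ^ 4 ∧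
      G4.qJ (dq D l) = β * (s * l + t) ^ 6) :
    dx D 1 ^ 2 - 4 * dx D 2 * dx D 0 ≠ 0 := by
  intro hd
  obtain ⟨l₀, hl₁⟩ := h4
  -- the quartic at `l₀`
  obtain ⟨F, hF⟩ : ∃ F : ℂ[X], F = dx D 2 * C l₀ ^ 2 + dx D 1 * C l₀ + dx D 0 := ⟨_, rfl⟩
  have hF' : F = C (dq D l₀ 4) * X ^ 4 + C (dq D l₀ 3) * X ^ 3 + C (dq D l₀ 2) * X ^ 2 +
      C (dq D l₀ 1) * X + C (dq D l₀ 0) := by
    rw [hF]
    unfold dx dq
    simp only [C_add, C_mul, C_pow]
    ring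
  obtain ⟨hsq, hdeg⟩ := quartic_squarefree (dq D l₀ 4) (dq D l₀ 3) (dq D l₀ 2) (dq D l₀ 1)
    (dq D l₀ 0) (by
      intro h
      apply hl₁
      unfold G4.qI G4.qJ
      linear_combination h)
  rw [← hF'] at hsq hdeg
  have hA4 : (dx D 2).natDegree ≤ 4 := by
    unfold dx
    compute_degree
  have h4A : 4 * dx D 2 * F = (2 * dx D 2 * C l₀ + dx D 1) ^ 2 := by
    rw [hF]
    linear_combination -hd
  by_cases hA : dx D 2 = 0
  · have hB : dx D 1 = 0 := by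
      rw [hA] at hd
      have h2 : dx D 1 ^ 2 = 0 := by linear_combination hd
      exact pow_eq_zero_iff two_ne_zero |>.1 h2
    have hz : ∀ (j : Fin 3), dx D j = 0 → ∀ i, D i j = 0 := by
      intro j hj0
      obtain ⟨c4, c3, c2, c1, c0⟩ := quart_coeff (D 4 j) (D 3 j) (D 2 j) (D 1 j) (D 0 j)
      have hj1 : C (D 4 j) * X ^ 4 + C (D 3 j) * X ^ 3 + C (D 2 j) * X ^ 2 + C (D 1 j) * X +
        C (D 0 j) = (0 : ℂ[X]) := hj0
      rw [hj1, coeff_zero] at c4 c3 c2 c1 c0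
      intro i
      fin_cases i
      · exact c0.symm
      · exact c1.symm
      · exact c2.symm
      · exact c3.symm
      · exact c4.symm
    have hdq : ∀ l : ℂ, dq D l = dq D l₀ := by
      intro l
      funext i
      unfold dq
      rw [hz 1 hB i, hz 2 hA i]
      ring
    refine hnt (G4.qI (dq D l₀)) (G4.qJ (dq D l₀)) 0 1 fun l => ?_
    rw [hdq l]
    constructor <;> ring
  · -- `F` divides `2 A l₀ + B`
    have hF0 : F ≠ 0 := hsq.ne_zero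
    obtain ⟨R, hR⟩ : F ∣ 2 * dx D 2 * C l₀ + dx D 1 :=
      (hsq.dvd_pow_iff_dvd two_ne_zero).1 ⟨4 * dx D 2, by rw [← h4A]; ring⟩
    have h5 : 4 * dx D 2 = F * R ^ 2 := by
      apply mul_left_cancel₀ hF0
      rw [hR] at h4A
      linear_combination h4A
    have hR0 : R ≠ 0 := by
      rintro rfl
      apply hA
      have h6 : (4 : ℂ[X]) * dx D 2 = 0 := by rw [h5]; ring
      exact (mul_eq_zero.1 h6).resolve_left (by norm_num)
    have hRd : R.natDegree = 0 := by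
      have h6 := congrArg natDegree h5
      rw [natDegree_mul hF0 (pow_ne_zero 2 hR0), natDegree_pow] at h6
      have h7 : (4 * dx D 2).natDegree ≤ 4 := by
        have k4 : (4 : ℂ[X]) = C 4 := rfl
        rw [k4]
        exact (natDegree_C_mul_le _ _).trans hA4
      omega
    obtain ⟨ρ, hρ⟩ := natDegree_eq_zero.1 hRd
    have hρ0 : ρ ≠ 0 := by
      rintro rfl
      apply hR0
      rw [← hρ, C_0]
    obtain ⟨b, hb⟩ : ∃ b : ℂ, b = 4 / ρ - 2 * l₀ := ⟨_, rfl⟩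
    have hBA : dx D 1 = C b * dx D 2 := by
      have h6 : C ρ * dx D 1 = C ρ * (C b * dx D 2) := by
        have h7 : C ρ * C b = 4 - 2 * C l₀ * C ρ := by
          rw [← C_mul, hb]
          have h8 : ρ * (4 / ρ - 2 * l₀) = 4 - 2 * l₀ * ρ := by field_simp
          rw [h8]
          simp only [C_sub, C_mul]
          rfl
        rw [← mul_assoc, h7]
        rw [← hρ] at hR h5
        linear_combination C ρ * hR - h5
      exact mul_left_cancel₀ (C_ne_zero.2 hρ0) h6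
    have hCA : dx D 0 = C (b ^ 2 / 4) * dx D 2 := by
      have h6 : (4 * dx D 2) * dx D 0 = (4 * dx D 2) * (C (b ^ 2 / 4) * dx D 2) := by
        have h7 : (4 : ℂ[X]) * C (b ^ 2 / 4) = C b ^ 2 := by
          have k4 : (4 : ℂ[X]) = C 4 := rfl
          rw [k4, ← C_mul, ← C_pow]
          congr 1
          ring
        rw [hBA] at hd
        linear_combination (dx D 2) ^ 2 * (-h7) - hd
      exact mul_left_cancel₀ (mul_ne_zero (by norm_num) hA) h6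
    have hco : ∀ (j : Fin 3) (t : ℂ), dx D j = C t * dx D 2 → ∀ i, D i j = t * D i 2 := by
      intro j t hjt i
      obtain ⟨c4, c3, c2, c1, c0⟩ := quart_coeff (D 4 j) (D 3 j) (D 2 j) (D 1 j) (D 0 j)
      obtain ⟨e4, e3, e2, e1, e0⟩ := quart_coeff (D 4 2) (D 3 2) (D 2 2) (D 1 2) (D 0 2)
      have hj1 : C (D 4 j) * X ^ 4 + C (D 3 j) * X ^ 3 + C (D 2 j) * X ^ 2 + C (D 1 j) * X +
        C (D 0 j) = C t * (C (D 4 2) * X ^ 4 + C (D 3 2) * X ^ 3 + C (D 2 2) * X ^ 2 +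
          C (D 1 2) * X + C (D 0 2)) := hjt
      rw [hj1, coeff_C_mul] at c4 c3 c2 c1 c0
      rw [e4] at c4
      rw [e3] at c3
      rw [e2] at c2
      rw [e1] at c1
      rw [e0] at c0
      fin_cases i
      · exact c0.symm
      · exact c1.symm
      · exact c2.symm
      · exact c3.symm
      · exact c4.symm
    have hdq : ∀ (l : ℂ) (i : Fin 5), dq D l i = (l + b / 2) ^ 2 * D i 2 := by
      intro l i
      unfold dq
      rw [hco 1 b hBA i, hco 0 _ hCA i]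
      ring
    obtain ⟨I₀, hI₀⟩ : ∃ I₀, I₀ = G4.qI (fun i => D i 2) := ⟨_, rfl⟩
    obtain ⟨J₀, hJ₀⟩ : ∃ J₀, J₀ = G4.qJ (fun i => D i 2) := ⟨_, rfl⟩
    have hIv : ∀ l : ℂ, G4.qI (dq D l) = (l + b / 2) ^ 4 * I₀ := by
      intro l
      rw [hI₀]
      unfold G4.qI
      simp only [hdq]
      ring
    have hJv : ∀ l : ℂ, G4.qJ (dq D l) = (l + b / 2) ^ 6 * J₀ := by
      intro l
      rw [hJ₀]
      unfold G4.qJ
      simp only [hdq]
      ring
    refine hnt I₀ J₀ 1 (b / 2) fun l => ?_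
    rw [hIv, hJv]
    constructor <;> ring

section

variable {N : Type} [Field N] [Algebra ℂ N]

theorem quart_rational (D : Fin 5 → Fin 3 → ℂ)
    (hdx : dx D 1 ^ 2 - 4 * dx D 2 * dx D 0 ≠ 0)
    {l x y t₁ t₂ : N} (hind : AlgebraicIndependent ℂ ![x, l, t₁, t₂])
    (hy : y ^ 2 = G4.qv (dq (fun i j => algebraMap ℂ N (D i j)) l) x) :
    IsRational (IntermediateField.adjoin ℂ {l, x, y, t₁, t₂}) := by
  refine quad_rational (dx D 2) (dx D 1) (dx D 0) hdx hind ?_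
  rw [hy]
  unfold G4.qv dq dx
  simp only [map_add, map_mul, map_pow, aeval_C, aeval_X]
  ring

variable [IsAlgClosed N] [DecidableEq N] [CharZero N]
variable {s : N} {c d : Fin 5 → N}

/-- **(J2)** the fixed field is rational, and everything is algebraic over it -/
theorem jtwo (h4 : Algebra.trdeg ℂ N = 4) {D : Fin 5 → Fin 3 → ℂ}
    (hdx : dx D 1 ^ 2 - 4 * dx D 2 * dx D 0 ≠ 0) (hs : Transcendental ℂ s)
    {x y t₁ t₂ : N} (hx : x ∉ cl0 {s}) (ht₁ : t₁ ∉ clo (cl0 {s}) {x})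
    (ht₂ : t₂ ∉ clo (clo (cl0 {s}) {x}) {t₁})
    (hy : y ^ 2 = qv (dq (fun i j => algebraMap ℂ N (D i j)) (lv s)) x) :
    IsRational (IntermediateField.adjoin ℂ ({lv s, x, y, t₁, t₂} : Set N)) ∧
      Algebra.IsAlgebraic (IntermediateField.adjoin ℂ ({lv s, x, y, t₁, t₂} : Set N)) N := by
  have hs0 : s ≠ 0 := by
    rintro rfl
    exact hs isAlgebraic_zero
  have key : ∀ M : IntermediateField ℂ N, Closed M → lv s ∈ M → x ∈ M → t₁ ∈ M → t₂ ∈ M →
      ∀ z, z ∈ M := fun M hM m0 m1 m2 m3 z =>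
    full h4 hs hx ht₁ ht₂ hM (s_mem_of_lv hM hs0 m0) m1 m2 m3 z
  refine ⟨quart_rational D hdx (ind_of_all h4 ?_) hy, ⟨fun z => mem_cl0.1 ?_⟩⟩
  · refine key _ (closed_cl0 _) (subset_cl0 _ ⟨1, rfl⟩) (subset_cl0 _ ⟨0, rfl⟩)
      (subset_cl0 _ ⟨2, rfl⟩) (subset_cl0 _ ⟨3, rfl⟩)
  · exact key _ (closed_cl0 _) (subset_cl0 _ (by simp)) (subset_cl0 _ (by simp))
      (subset_cl0 _ (by simp)) (subset_cl0 _ (by simp)) z

/-- **(J3)** -/
theorem jthree {K : Type} [Field K] [Algebra ℂ K] (h4 : Algebra.trdeg ℂ N = 4)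
    {D : Fin 5 → Fin 3 → ℂ}
    (hdx : dx D 1 ^ 2 - 4 * dx D 2 * dx D 0 ≠ 0)
    (H : Twist s c (dq (fun i j => algebraMap ℂ N (D i j)) (lv s)))
    (nsum : N → (Wq c).Point → ((K →ₐ[ℂ] N) →₀ ℤ))
    (hact : ∀ (g : N ≃ₐ[ℂ] N) (hg : g s = s ∨ g s = s⁻¹) (e : N), (e = s ∨ e = s⁻¹) →
      ∀ P, ¬ InF (cl0 {s}) P → act g.toAlgHom (nsum e P) =
        nsum (g e) (gfun (rh g) (fix_ab (rh g) (H.fixc g hg)) P))
    (hadd : ∀ (e : N) (P T : (Wq c).Point), (2 : ℕ) • T = 0 → nsum e (P + T) = nsum e P)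
    {P : (Wq c).Point} (hP : ¬ InF (cl0 {s}) P) :
    nsum s P + nsum s⁻¹ (-P) ∈ stableRelations K N := by
  have hκ := closed_cl0 ({s} : Set N)
  have hdd := H.discd
  have hs0 := H.s_ne
  obtain ⟨had, hbd⟩ := H.qId_mem
  obtain ⟨ε, hε⟩ := exists_root hdd
  have hεm := H.root_mem hε
  have hP' := H.tp_notMem le_rfl hP
  have hfin : Fin' _ ε (H.tp P) := fin_of_notMem hκ H.memd had hbd hεm hP'
  have hXm : aX _ ε (H.tp P) ∉ cl0 {s} := fun h0 =>
    hP' (inF_of_aX hκ H.memd had hbd hdd hε hεm hfin h0)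
  obtain ⟨t₁, ht₁⟩ := exists_notMem1 h4 s (aX _ ε (H.tp P))
  obtain ⟨t₂, ht₂⟩ := exists_notMem2 h4 s (aX _ ε (H.tp P)) t₁
  obtain ⟨hrat, halg⟩ := jtwo h4 hdx H.tr hXm ht₁ ht₂ (hfin.eqn hε)
  have hnP : ¬ InF (cl0 {s}) (-P) := by
    intro h
    apply hP
    have h1 := h.neg
    rwa [neg_neg] at h1
  refine stable_of_fixed _ hrat halg _ fun g hg => ?_
  have hgl : g (lv s) = lv s := hg _ (IntermediateField.subset_adjoin _ _ (by simp))
  have hgs := lv_fix hs0 g hgl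
  have hgX := hg _ (IntermediateField.subset_adjoin ℂ
    ({lv s, aX _ ε (H.tp P), aY _ ε (H.tp P), t₁, t₂} : Set N)
    (show aX _ ε (H.tp P) ∈ _ by simp))
  have hgY := hg _ (IntermediateField.subset_adjoin ℂ
    ({lv s, aX _ ε (H.tp P), aY _ ε (H.tp P), t₁, t₂} : Set N)
    (show aY _ ε (H.tp P) ∈ _ by simp))
  obtain ⟨T, hT, hcase⟩ := H.jone hε hP g hgs hgX hgY
  have hT' : (2 : ℕ) • -T = 0 := by rw [smul_neg, hT, neg_zero]
  rw [map_add, hact g hgs s (Or.inl rfl) P hP, hact g hgs s⁻¹ (Or.inr rfl) (-P) hnP, gfun_neg]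
  rcases hcase with ⟨h1, h2⟩ | ⟨h1, h2⟩
  · rw [map_inv₀, h1, h2, hadd _ _ _ hT, neg_add, hadd _ _ _ hT']
  · rw [map_inv₀, h1, h2, inv_inv, hadd _ _ _ hT, neg_add, neg_neg, hadd _ _ _ hT', add_comm]

end

section

variable {K N : Type} [Field K] [Algebra ℂ K] [Field N] [Algebra ℂ N]
variable [CharZero N] [IsAlgClosed N] [DecidableEq N]
variable {m : Fin 11 → ℂ} {B : N → N → N → ((K →ₐ[ℂ] N) →₀ ℤ)} {s ε : N}

/-- **(J)** -/
theorem jac_rel (T : TD m B s ε) {D : Fin 5 → Fin 3 → ℂ}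
    (hD : ∀ l : ℂ, qI (H160.dq D l) = ID m l 1 ∧ qJ (H160.dq D l) = JD m l 1)
    (hdx : dx D 1 ^ 2 - 4 * dx D 2 * dx D 0 ≠ 0)
    {P : (Wq (cq m s)).Point} (hP : ¬ InF (cl0 {s}) P) :
    nsum B (cq m s) ε s P + nsum B (cq m s) ε s⁻¹ (-P) ∈ stableRelations K N :=
  jthree T.deg hdx (J.twist_of hD T.tr T.disc) (fun e Q => nsum B (cq m s) ε e Q)
    (fun g hg e _ Q hQ => T.nsum_act g hg
      (fun i => (J.twist_of hD T.tr T.disc).fixc g hg i) e hQ)
    (fun e Q t ht => nsum_add ε e Q t ht) hP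

end

section

variable {N : Type} [Field N] [Algebra ℂ N]

/-- the discriminant at a transcendental element -/
theorem disc_ne {m : Fin 11 → ℂ} {D : Fin 5 → Fin 3 → ℂ}
    (hD : ∀ l : ℂ, qI (H160.dq D l) = ID m l 1 ∧ qJ (H160.dq D l) = JD m l 1)
    (h41 : ∃ l : ℂ, 4 * qI (H160.dq D l) ^ 3 ≠ qJ (H160.dq D l) ^ 2) {s : N}
    (hs : Transcendental ℂ s) :
    4 * qI (fc (am N m) (lv s)) ^ 3 ≠ qJ (fc (am N m) (lv s)) ^ 2 := by
  have hl := lv_tr hs
  obtain ⟨h1, h2⟩ := quart_at (N := N) hD (lv s)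
  rw [qI_fc, qJ_fc, ← h1, ← h2]
  have hinj : Function.Injective (aeval (lv s) : ℂ[X] →ₐ[ℂ] N) :=
    transcendental_iff_injective.1 hl
  have hne : ∀ c : ℂ, lv s - algebraMap ℂ N c ≠ 0 := by
    intro c h0
    apply hl
    rw [sub_eq_zero.1 h0]
    exact isAlgebraic_algebraMap c
  have hl0 : lv s ≠ 0 := by
    have h3 := hne 0
    rwa [map_zero, sub_zero] at h3
  have hl4 : lv s - 4 ≠ 0 := by
    have h3 := hne 4
    rwa [map_ofNat] at h3
  have hdq : ∀ {R S : Type} [CommRing R] [CommRing S] (φ : R →+* S) (E : Fin 5 → Fin 3 → R)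
      (x : R), (fun i => φ (H160.dq E x i)) = H160.dq (fun i j => φ (E i j)) (φ x) := by
    intro R S _ _ φ E x
    funext i
    simp only [H160.dq, map_add, map_mul, map_pow]
  have k1 := H55.map_qI (φ := ((aeval (lv s) : ℂ[X] →ₐ[ℂ] N) : ℂ[X] →+* N))
      (H160.dq (fun i j => (C (D i j) : ℂ[X])) X)
  have k2 := H55.map_qJ (φ := ((aeval (lv s) : ℂ[X] →ₐ[ℂ] N) : ℂ[X] →+* N))
      (H160.dq (fun i j => (C (D i j) : ℂ[X])) X)
  rw [hdq] at k1 k2
  simp only [RingHom.coe_coe, aeval_C, aeval_X] at k1 k2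
  intro h0
  have hpol : C 4 * qI (dq (fun i j => (C (D i j) : ℂ[X])) X) ^ 3 ≠
      C 1 * qJ (dq (fun i j => (C (D i j) : ℂ[X])) X) ^ 2 := by
    intro heq
    obtain ⟨r, hr⟩ := h41
    apply hr
    have e1 := congrArg (Polynomial.eval r) heq
    simp only [eval_mul, eval_pow, eval_C, one_mul] at e1
    have e2 : (qI (dq (fun i j => (C (D i j) : ℂ[X])) X)).eval r = qI (dq D r) := by
      simp [G4.qI, dq]
    have e3 : (qJ (dq (fun i j => (C (D i j) : ℂ[X])) X)).eval r = qJ (dq D r) := by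
      simp [G4.qJ, dq]
    rw [e2, e3] at e1
    exact e1
  apply hpol
  apply hinj
  rw [map_mul, map_mul, map_pow, map_pow, aeval_C, aeval_C, map_ofNat, map_one, k1, k2, one_mul]
  have h5 : (lv s * (lv s - 4)) ^ 6 ≠ 0 := pow_ne_zero 6 (mul_ne_zero hl0 hl4)
  apply mul_left_cancel₀ h5
  linear_combination h0

variable {K : Type} [Field K] [Algebra ℂ K] [CharZero N] [IsAlgClosed N]

/-- [TS] with the relation (J) as a hypothesis -/
theorem tside_aux {m : Fin 11 → ℂ} {D : Fin 5 → Fin 3 → ℂ}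
    (hD : ∀ l : ℂ, qI (H160.dq D l) = ID m l 1 ∧ qJ (H160.dq D l) = JD m l 1)
    (h41 : ∃ l : ℂ, 4 * qI (H160.dq D l) ^ 3 ≠ qJ (H160.dq D l) ^ 2)
    (h4 : Algebra.trdeg ℂ N = 4) (B : N → N → N → ((K →ₐ[ℂ] N) →₀ ℤ))
    (hB : ∀ (g : N ≃ₐ[ℂ] N) (e X Y : N), act g.toAlgHom (B e X Y) = B (g e) (g X) (g Y))
    [DecidableEq N]
    (hJ : ∀ (s ε : N) (_ : TD m B s ε) (P : (Wq (cq m s)).Point), ¬ InF (cl0 {s}) P →
      nsum B (cq m s) ε s P + nsum B (cq m s) ε s⁻¹ (-P) ∈ stableRelations K N)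
    {s X Y : N} (hg : Gen m s X Y) :
    (8 : ℤ) • (B s X Y - B s⁻¹ X Y) ∈ stableRelations K N := by
  have hs : Transcendental ℂ s := hg.ind.transcendental 0
  have hdisc := disc_ne hD h41 hs
  have hX : X ∉ cl0 ({s} : Set N) := by
    have h1 : (![s, X] : Fin 2 → N) 1 ∉ cl0 ((![s, X] : Fin 2 → N) '' {0}) := by
      rw [mem_cl0]
      exact (IntermediateField.transcendental_adjoin_iff).2
        (hg.ind.transcendental_adjoin (by simp))
    rw [Set.image_singleton] at h1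
    exact h1
  -- a root of the quartic
  obtain ⟨ε, hε⟩ : ∃ ε : N, qv (cq m s) ε = 0 := q_root (cq m s) hdisc
  have T : TD m B s ε := ⟨h4, hs, hdisc, hε, hB⟩
  have hne : X ≠ ε := fun h => hX (by rw [h]; exact T.emem)
  obtain ⟨P, hfin, hPX, hPY⟩ := exists_fin T.disc T.root hg.eq hne
  have hP : ¬ InF (cl0 {s}) P := by
    rw [← aX_mem_iff T.disc T.cmem (closed_cl0 _) T.emem T.root hfin, hPX]
    exact hX
  have h1 := T.diff (hJ s ε T) hP
  unfold bet at h1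
  rwa [hPX, hPY] at h1

end

section

variable {K N : Type} [Field K] [Algebra ℂ K] [Field N] [Algebra ℂ N]

/-- **[TS]** -/
theorem tside [IsAlgClosed N] {m : Fin 11 → ℂ} {D : Fin 5 → Fin 3 → ℂ}
    (hD : ∀ l : ℂ, qI (H160.dq D l) = ID m l 1 ∧ qJ (H160.dq D l) = JD m l 1)
    (hdx : dx D 1 ^ 2 - 4 * dx D 2 * dx D 0 ≠ 0)
    (h41 : ∃ l : ℂ, 4 * qI (H160.dq D l) ^ 3 ≠ qJ (H160.dq D l) ^ 2)
    (h4 : Algebra.trdeg ℂ N = 4) (B : N → N → N → ((K →ₐ[ℂ] N) →₀ ℤ))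
    (hB : ∀ (g : N ≃ₐ[ℂ] N) (e X Y : N), act g.toAlgHom (B e X Y) = B (g e) (g X) (g Y))
    {s X Y : N} (hg : Gen m s X Y) :
    (8 : ℤ) • (B s X Y - B s⁻¹ X Y) ∈ stableRelations K N := by
  classical
  have : CharZero N := charZero_of_injective_algebraMap (algebraMap ℂ N).injective
  exact tside_aux hD h41 h4 B hB (fun s ε T P hP => jac_rel T hD hdx hP) hg

end

section

variable {K N : Type} [Field K] [Algebra ℂ K] [Field N] [Algebra ℂ N]

/-- **[TS]** with the weakest condition on the invariants -/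
theorem tside_disc [IsAlgClosed N] {m : Fin 11 → ℂ} (m0 : m 0 ≠ 0) (m1 : m 1 ≠ 0) (m2 : m 2 ≠ 0)
    (h78 : m 7 ≠ 0 ∨ m 8 ≠ 0) (hne : ∃ l : ℂ, 4 * ID m l 1 ^ 3 ≠ JD m l 1 ^ 2)
    (h4 : Algebra.trdeg ℂ N = 4) (B : N → N → N → ((K →ₐ[ℂ] N) →₀ ℤ))
    (hB : ∀ (g : N ≃ₐ[ℂ] N) (e X Y : N), act g.toAlgHom (B e X Y) = B (g e) (g X) (g Y))
    {s X Y : N} (hg : Gen m s X Y) :
    (8 : ℤ) • (B s X Y - B s⁻¹ X Y) ∈ stableRelations K N := by
  obtain ⟨D, hD⟩ := H55.exists_quartic_all m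
  have h41 : ∃ l : ℂ, 4 * qI (H160.dq D l) ^ 3 ≠ qJ (H160.dq D l) ^ 2 := by
    obtain ⟨l, hl⟩ := hne
    refine ⟨l, ?_⟩
    rw [(hD l).1, (hD l).2]
    exact hl
  have hnt : ∀ α β s t : ℂ, ¬ ∀ l : ℂ, G4.qI (dq D l) = α * (s * l + t) ^ 4 ∧
      G4.qJ (dq D l) = β * (s * l + t) ^ 6 := by
    intro α β s t hall
    refine not_triv m0 m1 m2 h78 hne α β s t fun l => ?_
    rw [← (hD l).1, ← (hD l).2]
    exact hall l
  exact tside hD (dx_disc_ne D h41 hnt) h41 h4 B hB hg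

/-- **Any two points are rationally equivalent**, when the discriminant is not identically
zero. -/
theorem four_disc {m : Fin 11 → ℂ} (m0 : m 0 ≠ 0) (m1 : m 1 ≠ 0) (m2 : m 2 ≠ 0)
    (h78 : m 7 ≠ 0 ∨ m 8 ≠ 0) (hsp : m 9 ≠ 0 ∨ m 10 ≠ 0 ∨ ¬ Special m)
    (hne : ∃ l : ℂ, 4 * ID m l 1 ^ 3 ≠ JD m l 1 ^ 2) {u w p q : K}
    (hs : OnSurf (fun i => algebraMap ℂ K (m i)) u w p q)
    (hind : AlgebraicIndependent ℂ ![u, w])
    (htop : IntermediateField.adjoin ℂ {u, w, p, q} = ⊤)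
    {S : Scheme.{0}} [IsIntegral S] (f : S ⟶ Spec (.of ℂ)) [IsProper f]
    (hS : IsFunctionFieldOf f K) (x y : ClosedPt S) : RatEquiv f x y := by
  have hm : NonDegZ m := ⟨hsp, by tauto⟩
  exact four_of_tside m0 m1 hm hs hind htop (fun h3 _ _ _ hg =>
    tside_disc m0 m1 m2 h78 hne h3 (G4.Bs u w p q m)
      (fun g e X Y => act_Bs g u w p q m e X Y) hg) f hS x y

end

end Vale.Agent.P297.H212.Four
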