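import Vale.Agent.P297.H600.AllG.Four
import Vale.Agent.P297.H72.Camp8

/-!
Bloch's conjecture, integrally, for every surface dominated by the general numerical Godeaux
surface with torsion `ℤ/4`.
-/

set_option linter.unusedSectionVars false

open IntermediateField Polynomial

namespace Vale.Agent.P297.H212.Four

open Vale.Agent.P297 Vale.Agent.P297.H839 Vale.Agent.P297.H600 Vale.Agent.P297.H160
open Vale.Agent.P297.H729 Vale.Agent.P297.G4 Vale.Agent.P297.H72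

section

variable {K : Type} [Field K] [Algebra ℂ K]

/-- Thirty-two times the generic point is a relation. -/
theorem single_rel {m : Fin 11 → ℂ} (m0 : m 0 ≠ 0) (m1 : m 1 ≠ 0) (m2 : m 2 ≠ 0)
    (h78 : m 7 ≠ 0 ∨ m 8 ≠ 0) (hsp : m 9 ≠ 0 ∨ m 10 ≠ 0 ∨ ¬ Special m)
    (hsq : ∃ l : ℂ, ∀ r₀ r₁ r₂ : ℂ, ∃ x : ℂ, qv (fc m l) x ≠ (r₀ + r₁ * x + r₂ * x ^ 2) ^ 2)
    {u w p q : K} (hs : OnSurf (fun i => algebraMap ℂ K (m i)) u w p q)
    (hind : AlgebraicIndependent ℂ ![u, w])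
    (htop : IntermediateField.adjoin ℂ {u, w, p, q} = ⊤) :
    Finsupp.single (IsScalarTower.toAlgHom ℂ K (BigField K 2)) (32 : ℤ) ∈
      Rel 0 K (BigField K 2) := by
  refine Rel.of_stable ?_
  have hm : NonDegZ m := ⟨hsp, by tauto⟩
  have hT : Algebra.trdeg ℂ (BigField K 2) = 4 → ∀ s X Y : BigField K 2, Gen m s X Y →
      (8 : ℤ) • (G4.Bs u w p q m s X Y - G4.Bs u w p q m s⁻¹ X Y) ∈
        stableRelations K (BigField K 2) := fun h3 _ _ _ hg =>
    tside_all m0 m1 m2 h78 hsq h3 (G4.Bs u w p q m)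
      (fun g e X Y => act_Bs g u w p q m e X Y) hg
  obtain ⟨h1, h2, h3⟩ := exists_field (Ω := BigField K 2) u w hind
    (alg_top hs hind htop m0) (bigVar K 2) (bigVar_basis K 2)
  by_cases hz : m 9 = 0 ∧ m 10 = 0
  · obtain ⟨m9, m10⟩ := hz
    have hsp : ¬ Special m := by
      rcases hm.1 with h | h | h
      · exact absurd m9 h
      · exact absurd m10 h
      · exact h
    obtain ⟨c, d, hcd, hgD⟩ := exists_split m0 m1 hsp
    exact kside_zero m m0 m1 m9 m10 hm.2 hcd hgD hs hind htop _ (bigVar K 2 0) (bigVar K 2 1)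
      h1 h2 (hT h3)
  · have hm' : NonDeg m := by
      refine ⟨?_, hm.2⟩
      by_contra hcon
      push Not at hcon
      exact hz hcon
    exact kside' m m0 m1 hm' hs hind htop _ (bigVar K 2 0) (bigVar K 2 1) h1 h2 (hT h3)

/-- **Every surface dominated by a numerical Godeaux surface with torsion `ℤ/4`.** -/
theorem four_dom {m : Fin 11 → ℂ} (m0 : m 0 ≠ 0) (m1 : m 1 ≠ 0) (m2 : m 2 ≠ 0)
    (h78 : m 7 ≠ 0 ∨ m 8 ≠ 0) (hsp : m 9 ≠ 0 ∨ m 10 ≠ 0 ∨ ¬ Special m)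
    (hsq : ∃ l : ℂ, ∀ r₀ r₁ r₂ : ℂ, ∃ x : ℂ, qv (fc m l) x ≠ (r₀ + r₁ * x + r₂ * x ^ 2) ^ 2)
    {u w p q : K} (hs : OnSurf (fun i => algebraMap ℂ K (m i)) u w p q)
    (hind : AlgebraicIndependent ℂ ![u, w])
    (htop : IntermediateField.adjoin ℂ {u, w, p, q} = ⊤) {L : Type} [Field L] [Algebra ℂ L]
    (ι : L →ₐ[ℂ] K) : PointsEquivalent L := by
  have h1 := Rel.precomp ι (single_rel m0 m1 m2 h78 hsp hsq hs hind htop)
  rw [Finsupp.mapDomain_single] at h1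
  exact C8.pointsEquivalent_of_rel _ (by norm_num : (32 : ℤ) ≠ 0) h1

/-- **The general numerical Godeaux surface with torsion `ℤ/4`**, and every surface that it
dominates. -/
theorem four_all : ∃ R : MvPolynomial (Fin 11) ℂ, R ≠ 0 ∧ ∀ z : Fin 11 → ℂ,
    MvPolynomial.eval z R ≠ 0 →
    ∀ (K : Type) [Field K] [Algebra ℂ K] (u w p q : K),
      AlgebraicIndependent ℂ ![u, w] →
      IntermediateField.adjoin ℂ {u, w, p, q} = ⊤ →
      OnSurf (fun i => algebraMap ℂ K (z i)) u w p q →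
      ∀ (L : Type) [Field L] [Algebra ℂ L], (L →ₐ[ℂ] K) → PointsEquivalent L := by
  refine ⟨H600.AllG.R4, H600.AllG.R4_ne, fun z hz K _ _ u w p q hind htop hs L _ _ ι => ?_⟩
  rw [H600.AllG.eval_R4] at hz
  have h0 : z 0 ≠ 0 := fun h => hz (by rw [h]; ring)
  have h1 : z 1 ≠ 0 := fun h => hz (by rw [h]; ring)
  have h2 : z 2 ≠ 0 := fun h => hz (by rw [h]; ring)
  have h7 : z 7 ≠ 0 := fun h => hz (by rw [h]; ring)
  have h9 : z 9 ≠ 0 := fun h => hz (by rw [h]; ring)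
  have hq : fc z 1 1 ^ 2 * fc z 1 4 - fc z 1 3 ^ 2 * fc z 1 0 ≠ 0 :=
    fun h => hz (by rw [h]; ring)
  refine four_dom h0 h1 h2 (Or.inl h7) (Or.inl h9) ⟨1, fun r₀ r₁ r₂ => ?_⟩ hs hind htop ι
  by_contra hcon
  push Not at hcon
  exact hq (by rw [H600.AllG.rel_of_sq hcon]; ring)

end

end Vale.Agent.P297.H212.Four
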