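import Vale.Agent.P297.H212.Four.Weak
import Vale.Agent.P297.H600.Deg

/-!
Bloch's conjecture for every numerical Godeaux surface with torsion `ℤ/4`.
-/

set_option linter.unusedSectionVars false

open CategoryTheory AlgebraicGeometry IntermediateField Polynomial

namespace Vale.Agent.P297.H212.Four

open Vale.Agent.P297 Vale.Agent.P297.H839 Vale.Agent.P297.H600 Vale.Agent.P297.H160
open Vale.Agent.P297.H729 Vale.Agent.P297.G4

section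

variable {K N : Type} [Field K] [Algebra ℂ K] [Field N] [Algebra ℂ N]

/-- **[TS]** for all members: the quartic is not a square for some `l`. -/
theorem tside_all [IsAlgClosed N] {m : Fin 11 → ℂ} (m0 : m 0 ≠ 0) (m1 : m 1 ≠ 0) (m2 : m 2 ≠ 0)
    (h78 : m 7 ≠ 0 ∨ m 8 ≠ 0)
    (hsq : ∃ l : ℂ, ∀ r₀ r₁ r₂ : ℂ, ∃ x : ℂ, qv (fc m l) x ≠ (r₀ + r₁ * x + r₂ * x ^ 2) ^ 2)
    (h4 : Algebra.trdeg ℂ N = 4) (B : N → N → N → ((K →ₐ[ℂ] N) →₀ ℤ))
    (hB : ∀ (g : N ≃ₐ[ℂ] N) (e X Y : N), act g.toAlgHom (B e X Y) = B (g e) (g X) (g Y))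
    {s X Y : N} (hg : Gen m s X Y) :
    (8 : ℤ) • (B s X Y - B s⁻¹ X Y) ∈ stableRelations K N := by
  by_cases hne : ∃ l : ℂ, 4 * ID m l 1 ^ 3 ≠ JD m l 1 ^ 2
  · exact tside_disc m0 m1 m2 h78 hne h4 B hB hg
  · push Not at hne
    have h1 : B s X Y ∈ stableRelations K N := J.bs_stable m1 m2 hne hsq h4 B hB hg
    have h2 : B s⁻¹ X Y ∈ stableRelations K N :=
      J.bs_stable m1 m2 hne hsq h4 (fun e X Y => B e⁻¹ X Y)
        (fun g e X Y => by rw [hB, map_inv₀]) hg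
    exact AddSubgroup.zsmul_mem _ (AddSubgroup.sub_mem _ h1 h2) 8

/-- **Any two points are rationally equivalent**: the surfaces with torsion `ℤ/4`. -/
theorem four_final {m : Fin 11 → ℂ} (m0 : m 0 ≠ 0) (m1 : m 1 ≠ 0) (m2 : m 2 ≠ 0)
    (h78 : m 7 ≠ 0 ∨ m 8 ≠ 0) (hsp : m 9 ≠ 0 ∨ m 10 ≠ 0 ∨ ¬ Special m)
    (hsq : ∃ l : ℂ, ∀ r₀ r₁ r₂ : ℂ, ∃ x : ℂ, qv (fc m l) x ≠ (r₀ + r₁ * x + r₂ * x ^ 2) ^ 2)
    {u w p q : K} (hs : OnSurf (fun i => algebraMap ℂ K (m i)) u w p q)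
    (hind : AlgebraicIndependent ℂ ![u, w])
    (htop : IntermediateField.adjoin ℂ {u, w, p, q} = ⊤)
    {S : Scheme.{0}} [IsIntegral S] (f : S ⟶ Spec (.of ℂ)) [IsProper f]
    (hS : IsFunctionFieldOf f K) (x y : ClosedPt S) : RatEquiv f x y :=
  four_of_tside m0 m1 ⟨hsp, by tauto⟩ hs hind htop (fun h3 _ _ _ hg =>
    tside_all m0 m1 m2 h78 hsq h3 (G4.Bs u w p q m)
      (fun g e X Y => act_Bs g u w p q m e X Y) hg) f hS x y

end

end Vale.Agent.P297.H212.Four
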