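import Vale.Agent.P297.H424.G4.Forms
import Mathlib.Topology.Algebra.Polynomial
import Mathlib.Analysis.Complex.Basic

/-!
The invariants of the surfaces with torsion `ℤ/4` are not those of a constant elliptic curve.
-/

set_option linter.unusedSectionVars false

namespace Vale.Agent.P297.H212.Four

open Vale.Agent.P297.G4

/-- the symmetry of the equations -/
def swp (m : Fin 11 → ℂ) : Fin 11 → ℂ :=
  ![m 2, m 1, m 0, m 3, m 4, m 6, m 5, m 8, m 7, m 10, m 9]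

theorem ID_swp (m : Fin 11 → ℂ) (x : ℂ) : ID (swp m) x 1 = ID m x 1 := by
  simp only [ID, gD, gI, gA, gB, gC, gE, swp]
  simp only [Matrix.cons_val_zero, Matrix.cons_val_one, Matrix.cons_val]
  ring

theorem JD_swp (m : Fin 11 → ℂ) (x : ℂ) : JD (swp m) x 1 = JD m x 1 := by
  simp only [JD, gD, gI, gJ, gA, gB, gC, gE, swp]
  simp only [Matrix.cons_val_zero, Matrix.cons_val_one, Matrix.cons_val]
  ring

theorem ID_zero (m : Fin 11 → ℂ) :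
    ID m 0 1 = ((4 * m 5 - m 10 ^ 2) * (4 * m 6 - m 9 ^ 2)) ^ 2 := by
  simp only [ID, gD, gI, gA, gB, gC, gE]
  ring

theorem JD_zero (m : Fin 11 → ℂ) :
    JD m 0 1 = -(2 * ((4 * m 5 - m 10 ^ 2) * (4 * m 6 - m 9 ^ 2)) ^ 3) := by
  simp only [JD, gD, gI, gJ, gA, gB, gC, gE]
  ring

/-- The fibre at `l = 0` is singular. -/
theorem disc_zero (m : Fin 11 → ℂ) : 4 * ID m 0 1 ^ 3 = JD m 0 1 ^ 2 := by
  rw [ID_zero, JD_zero]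
  ring

/-- division by a power of the variable -/
theorem zero_of_mul {E : ℂ → ℂ} (hE : Continuous E) {n k : ℕ} {c : ℂ} (hk : 0 < k)
    (h : ∀ x : ℂ, x ^ n * E x = c * x ^ (n + k)) : E 0 = 0 := by
  have h1 : E = fun x => c * x ^ k := by
    apply Continuous.ext_on (dense_compl_singleton (0 : ℂ)) hE (by fun_prop)
    intro x hx
    have hx0 : x ≠ 0 := hx
    apply mul_left_cancel₀ (pow_ne_zero n hx0)
    rw [h, pow_add]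
    ring
  rw [h1]
  simp [hk.ne']

/-- the first step: `4 b₁ = γ²` -/
theorem jc_one {a₁ a₂ a₃ a₄ a₅ b₂ b₃ b₄ β γ I₀ J₀ : ℂ}
    (h1 : a₁ ≠ 0) (h2 : a₂ ≠ 0)
    (hI : ∀ x, ID ![a₁, a₂, a₃, a₄, a₅, γ ^ 2 / 4, b₂, b₃, b₄, β, γ] x 1 = I₀ * x ^ 4)
    (hJ : ∀ x, JD ![a₁, a₂, a₃, a₄, a₅, γ ^ 2 / 4, b₂, b₃, b₄, β, γ] x 1 = J₀ * x ^ 6) :
    4 * b₂ = β ^ 2 ∧ b₃ * b₄ = 0 := by
  have hA : ∀ x : ℂ, (4 - x) * (γ ^ 2 / 4) - γ ^ 2 = -(γ ^ 2 / 4 * x) := fun x => by ring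
  have e1 := zero_of_mul (n := 1) (k := 3) (c := I₀) (E := fun x =>
    x * ((4 - x) * a₅ ^ 2 + 2 * a₅ * β * γ + γ ^ 2 * b₂) ^ 2 -
      4 * a₂ * (12 * a₁ * ((4 - x) * b₂ - β ^ 2) ^ 2 + 12 * a₃ * (γ ^ 2 / 4 * x) ^ 2 -
        6 * b₃ * (((4 - x) * a₅ + β * γ) * ((4 - x) * b₂ - β ^ 2)) +
        6 * b₄ * ((γ ^ 2 / 4 * x) * ((4 - x) * a₅ + β * γ)) -
        4 * a₄ * ((γ ^ 2 / 4 * x) * ((4 - x) * b₂ - β ^ 2)) +
        2 * a₄ * (x * ((4 - x) * a₅ + β * γ) ^ 2)) +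
      16 * a₂ ^ 2 * (4 - x) ^ 2 * (x * (12 * (a₁ * a₃) + a₄ ^ 2) - 3 * (b₃ * b₄)))
    (by fun_prop) (by norm_num) (by
      intro x
      rw [← hI x]
      simp only [ID, gD, gI, gA, gB, gC, gE]
      simp only [Matrix.cons_val_zero, Matrix.cons_val_one, Matrix.cons_val]
      ring)
  have e2 := zero_of_mul (n := 1) (k := 5) (c := J₀) (E := fun x =>
    2 * x ^ 2 * ((4 - x) * a₅ ^ 2 + 2 * a₅ * β * γ + γ ^ 2 * b₂) ^ 3 -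
      12 * a₂ * (x * ((4 - x) * a₅ ^ 2 + 2 * a₅ * β * γ + γ ^ 2 * b₂)) *
      (12 * a₁ * ((4 - x) * b₂ - β ^ 2) ^ 2 + 12 * a₃ * (γ ^ 2 / 4 * x) ^ 2 -
        6 * b₃ * (((4 - x) * a₅ + β * γ) * ((4 - x) * b₂ - β ^ 2)) +
        6 * b₄ * ((γ ^ 2 / 4 * x) * ((4 - x) * a₅ + β * γ)) -
        4 * a₄ * ((γ ^ 2 / 4 * x) * ((4 - x) * b₂ - β ^ 2)) +
        2 * a₄ * (x * ((4 - x) * a₅ + β * γ) ^ 2)) -
      16 * a₂ ^ 2 * (4 - x) * gJ ![a₁, a₂, a₃, a₄, a₅, γ ^ 2 / 4, b₂, b₃, b₄, β, γ]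
        (-(γ ^ 2 / 4 * x)) ((4 - x) * a₅ + β * γ) ((4 - x) * b₂ - β ^ 2) x 1 +
      64 * a₂ ^ 3 * (4 - x) ^ 3 * x * (72 * (a₁ * a₃ * a₄) * x + 9 * (a₄ * b₃ * b₄) -
        27 * (a₃ * b₃ ^ 2) - 27 * (a₁ * b₄ ^ 2) - 2 * a₄ ^ 3 * x))
    (by
      simp only [gJ]
      simp only [Matrix.cons_val_zero, Matrix.cons_val]
      fun_prop) (by norm_num) (by
      intro x
      rw [← hJ x]
      simp only [JD, gD, gI, gJ, gA, gB, gC, gE]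
      simp only [Matrix.cons_val_zero, Matrix.cons_val_one, Matrix.cons_val]
      ring)
  simp only [gJ] at e2
  simp only [Matrix.cons_val_zero, Matrix.cons_val] at e2
  have f1 : 2 * a₁ * (4 * b₂ - β ^ 2) ^ 2 - b₃ * (4 * a₅ + β * γ) * (4 * b₂ - β ^ 2) +
      32 * a₂ * (b₃ * b₄) = 0 := by
    apply mul_left_cancel₀ (mul_ne_zero (by norm_num : (-24 : ℂ) ≠ 0) h2)
    linear_combination e1
  have f2 : b₃ * (4 * b₂ - β ^ 2) = 0 := by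
    have h3 : (1728 * a₂ ^ 2) * (b₃ * (4 * b₂ - β ^ 2)) ^ 2 = 0 := by
      linear_combination e2
    rcases mul_eq_zero.1 h3 with h4 | h4
    · exact absurd h4 (mul_ne_zero (by norm_num) (pow_ne_zero 2 h2))
    · exact pow_eq_zero_iff two_ne_zero |>.1 h4
  by_cases hC : 4 * b₂ - β ^ 2 = 0
  · refine ⟨by linear_combination hC, ?_⟩
    rw [hC] at f1
    have h3 : 32 * a₂ * (b₃ * b₄) = 0 := by linear_combination f1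
    rcases mul_eq_zero.1 h3 with h4 | h4
    · exact absurd h4 (mul_ne_zero (by norm_num) h2)
    · exact h4
  · exfalso
    have hb : b₃ = 0 := (mul_eq_zero.1 f2).resolve_right hC
    rw [hb] at f1
    have h3 : 2 * a₁ * (4 * b₂ - β ^ 2) ^ 2 = 0 := by linear_combination f1
    exact mul_ne_zero (mul_ne_zero two_ne_zero h1) (pow_ne_zero 2 hC) h3

/-- the second step: `4 b₁ = γ²`, `4 b₂ = β²`, `b₃ b₄ = 0` -/
theorem jc_two {a₁ a₂ a₃ a₄ a₅ b₃ b₄ β γ J₀ : ℂ} (h2 : a₂ ≠ 0) (h34 : b₃ * b₄ = 0)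
    (hJ : ∀ x, JD ![a₁, a₂, a₃, a₄, a₅, γ ^ 2 / 4, β ^ 2 / 4, b₃, b₄, β, γ] x 1 = J₀ * x ^ 6) :
    a₃ * b₃ ^ 2 + a₁ * b₄ ^ 2 = 0 := by
  have e2 := zero_of_mul (n := 2) (k := 4) (c := J₀) (E := fun x =>
    2 * x * ((4 - x) * a₅ ^ 2 + 2 * a₅ * β * γ + γ ^ 2 * (β ^ 2 / 4)) ^ 3 -
      12 * a₂ * ((4 - x) * a₅ ^ 2 + 2 * a₅ * β * γ + γ ^ 2 * (β ^ 2 / 4)) *
      (x * (12 * a₁ * (β ^ 2 / 4) ^ 2 * x + 12 * a₃ * (γ ^ 2 / 4) ^ 2 * x +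
        6 * b₃ * (β ^ 2 / 4) * ((4 - x) * a₅ + β * γ) +
        6 * b₄ * (γ ^ 2 / 4) * ((4 - x) * a₅ + β * γ) +
        4 * a₄ * (γ ^ 2 / 4) * (β ^ 2 / 4) * x + 2 * a₄ * ((4 - x) * a₅ + β * γ) ^ 2)) -
      16 * a₂ ^ 2 * (4 - x) * (x * (72 * (x * (a₁ * a₄) * (β ^ 2 / 4) ^ 2 +
        (((4 - x) * a₅ + β * γ) ^ 2 + 2 * (γ ^ 2 / 4) * (β ^ 2 / 4) * x) * (a₁ * a₃) +
        x * (γ ^ 2 / 4) ^ 2 * (a₃ * a₄)) -
        18 * (β ^ 2 / 4 * b₃ + γ ^ 2 / 4 * b₄) * a₄ * ((4 - x) * a₅ + β * γ) -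
        27 * (b₃ ^ 2 * (β ^ 2 / 4) ^ 2 - 4 * (γ ^ 2 / 4) * ((4 - x) * a₅ + β * γ) * (a₃ * b₃)) -
        27 * (b₄ ^ 2 * (γ ^ 2 / 4) ^ 2 - 4 * (β ^ 2 / 4) * ((4 - x) * a₅ + β * γ) * (a₁ * b₄)) -
        6 * (((4 - x) * a₅ + β * γ) ^ 2 + 2 * (γ ^ 2 / 4) * (β ^ 2 / 4) * x) * a₄ ^ 2)) +
      64 * a₂ ^ 3 * (4 - x) ^ 3 * (72 * (a₁ * a₃ * a₄) * x -
        27 * (a₃ * b₃ ^ 2) - 27 * (a₁ * b₄ ^ 2) - 2 * a₄ ^ 3 * x))
    (by fun_prop) (by norm_num) (by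
      intro x
      rw [← hJ x]
      simp only [JD, gD, gI, gJ, gA, gB, gC, gE]
      simp only [Matrix.cons_val_zero, Matrix.cons_val_one, Matrix.cons_val]
      linear_combination (16 * a₂ ^ 2 * (4 - x) * x * (9 * (x * ((4 - x) * a₅ + β * γ) ^ 2 +
        2 * ((γ ^ 2 / 4) * (β ^ 2 / 4) * x ^ 2))) - 64 * a₂ ^ 3 * (4 - x) ^ 3 * x ^ 2 *
        (9 * a₄)) * h34)
  have h3 : (-(64 * 64 * 27) * a₂ ^ 3) * (a₃ * b₃ ^ 2 + a₁ * b₄ ^ 2) = 0 := by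
    linear_combination e2
  rcases mul_eq_zero.1 h3 with h4 | h4
  · exact absurd h4 (mul_ne_zero (by norm_num) (pow_ne_zero 3 h2))
  · exact h4

theorem m_eq (m : Fin 11 → ℂ) :
    m = ![m 0, m 1, m 2, m 3, m 4, m 5, m 6, m 7, m 8, m 9, m 10] := by
  funext i
  fin_cases i <;> rfl

theorem jc_aux (m : Fin 11 → ℂ) (m0 : m 0 ≠ 0) (m1 : m 1 ≠ 0) (m2 : m 2 ≠ 0)
    (h78 : m 7 ≠ 0 ∨ m 8 ≠ 0) {I₀ J₀ : ℂ} (hI : ∀ x, ID m x 1 = I₀ * x ^ 4)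
    (hJ : ∀ x, JD m x 1 = J₀ * x ^ 6) (h5 : 4 * m 5 = m 10 ^ 2) : False := by
  have e5 : m 5 = m 10 ^ 2 / 4 := by linear_combination h5 / 4
  rw [m_eq m, e5] at hI hJ
  obtain ⟨h6, h34⟩ := jc_one m0 m1 hI hJ
  have e6 : m 6 = m 9 ^ 2 / 4 := by linear_combination h6 / 4
  rw [e6] at hJ
  have h3 := jc_two m1 h34 hJ
  rcases mul_eq_zero.1 h34 with h | h
  · rw [h] at h3
    have h4 : m 0 * m 8 ^ 2 = 0 := by linear_combination h3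
    have h8 : m 8 = 0 := pow_eq_zero_iff two_ne_zero |>.1 ((mul_eq_zero.1 h4).resolve_left m0)
    exact h78.elim (fun k => k h) (fun k => k h8)
  · rw [h] at h3
    have h4 : m 2 * m 7 ^ 2 = 0 := by linear_combination h3
    have h8 : m 7 = 0 := pow_eq_zero_iff two_ne_zero |>.1 ((mul_eq_zero.1 h4).resolve_left m2)
    exact h78.elim (fun k => k h8) (fun k => k h)

/-- **The jacobian is not constant.** -/
theorem jc_false (m : Fin 11 → ℂ) (m0 : m 0 ≠ 0) (m1 : m 1 ≠ 0) (m2 : m 2 ≠ 0)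
    (h78 : m 7 ≠ 0 ∨ m 8 ≠ 0) {I₀ J₀ : ℂ} (hI : ∀ x, ID m x 1 = I₀ * x ^ 4)
    (hJ : ∀ x, JD m x 1 = J₀ * x ^ 6) : False := by
  have h0 := hI 0
  rw [ID_zero] at h0
  have h1 : (4 * m 5 - m 10 ^ 2) * (4 * m 6 - m 9 ^ 2) = 0 := by
    apply pow_eq_zero_iff two_ne_zero |>.1
    rw [h0]
    ring
  rcases mul_eq_zero.1 h1 with h | h
  · exact jc_aux m m0 m1 m2 h78 hI hJ (by linear_combination h)
  · refine jc_aux (swp m) m2 m1 m0 h78.symm (fun x => by rw [ID_swp, hI])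
      (fun x => by rw [JD_swp, hJ]) ?_
    change 4 * m 6 = m 9 ^ 2
    linear_combination h

end Vale.Agent.P297.H212.Four
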